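import Vale.Agent.P078L.Br

namespace Vale.Agent.Results.P078.ALiteral

open Vale.Agent.P078L

/-- Let `M` be a unital self-adjoint subalgebra of `B(H)`. (1) The three definitions of a von
Neumann algebra agree. (2) Every abelian self-adjoint subalgebra of `M` lies in a maximal one.
(3) If `M` is a von Neumann algebra, `A` a maximal abelian self-adjoint subalgebra of `M` and
`0 < ε < 1`, then `n_{A ⊆ M}(ε)` is finite and at most `1200003 / ε²`. -/
theorem result {H : Type*} [NormedAddCommGroup H] [InnerProductSpace ℂ H] [CompleteSpace H]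
    (M : StarSubalgebra ℂ (H →L[ℂ] H)) :
    ((WeaklyClosed M ↔ StronglyClosed M) ∧ (StronglyClosed M ↔ Bicommutant M)) ∧
    (∀ B, AbelianIn M B → ∃ A, B ≤ A ∧ Maximal (AbelianIn M) A) ∧
    (WeaklyClosed M → ∀ A, Maximal (AbelianIn M) A → ∀ ε : ℝ, 0 < ε → ε < 1 →
      ∃ n : ℕ, pavingNumber M A ε = n ∧ (n : ℝ) ≤ 1200003 / ε ^ 2) :=
  ⟨tfae M, fun _ hB => exists_masa hB,
    fun hM _ hA _ h0 h1 => bound (bi_of_strong (strong_of_weak hM)) hA h0 h1⟩

end Vale.Agent.Results.P078.ALiteral
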